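import Vale.Agent.H27.CT.Defs
import Vale.Agent.KTV.Avg

/-!
# Skeleton: exact statements of the rows (with `sorry`).
Work in a file `Vale/Agent/H27/CT/<Row>.lean`, importing `Defs` only, same names, namespace
`Vale.Agent.H27.CT`.
-/

open Finset

namespace Vale.Agent.H27.CT.Skel

section TwoRow
variable {ι : Type*} [Fintype ι] [DecidableEq ι]

/-! ## Row T1 -/

theorem sum_Jf {k : ℕ} (hk : k ≠ 0) (u : (ι → ℕ) → ℝ) {x : ι → ℕ} (hx : ∑ a, x a = k) :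
    ∑ a, Jf k u a x = 0 := by
  sorry

theorem hst_eq_Jf {r : ℕ} (u : (ι → ℕ) → ℝ) (a : ι) {x : ι → ℕ} (hx : ∑ a, x a = r) :
    hst u a x = ((r : ℝ) + 1) * Jf (r + 1) u a (up x a) := by
  sorry

theorem Jf_diff {r : ℕ} (u : (ι → ℕ) → ℝ) {t : ι → ℕ} (ht : ∑ a, t a = r + 2) {a c : ι}
    (hac : a ≠ c) (ha : 1 ≤ t a) (hc : 1 ≤ t c) :
    Jf (r + 1) u a (dn t c) - Jf (r + 1) u a (dn t a)
      = (t a : ℝ) * gd r u t a c + Gam r u t a := by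
  sorry

theorem sum_GG (s : ι → ℕ) (r : ℕ) (u : (ι → ℕ) → ℝ) : ∑ x ∈ lev s r, GG s u x = 0 := by
  sorry

/-! ## Row T2 -/

theorem b_identity (s : ι → ℕ) (r : ℕ) (u : (ι → ℕ) → ℝ) :
    ∑ x ∈ lev s r, (GG s u x ^ 2 - ∑ a ∈ univ.filter (fun a => x a + 1 = s a), hst u a x ^ 2)
      = ((r : ℝ) + 1) ^ 2 * YY s r u := by
  sorry

/-! ## Row T3 (uses T1) -/

theorem bulk (s : ι → ℕ) (r : ℕ) (u : (ι → ℕ) → ℝ) (c : (ι → ℕ) → ι)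
    (hc : ∀ x ∈ lev s r, x (c x) < s (c x) ∧ ∀ a, x a < s a → x a ≤ x (c x)) :
    ∑ x ∈ lev s r, (GG s u x - Wf s r u c x) ^ 2
      ≤ 2 * (Fintype.card ι : ℝ) ^ 2 * (((r : ℝ) + 1) ^ 2 * YY s r u) := by
  sorry

/-! ## Row L1 (log-concavity) -/

theorem lev_slc (s : ι → ℕ) {i j : ℕ} (hij : i ≤ j) :
    (lev s i).card * (lev s (j + 1)).card ≤ (lev s (i + 1)).card * (lev s j).card := by
  sorry

theorem lev_symm (s : ι → ℕ) {k : ℕ} (hk : k ≤ ∑ a, s a) :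
    (lev s k).card = (lev s (∑ a, s a - k)).card := by
  sorry

theorem lev_mono (s : ι → ℕ) {i j : ℕ} (hij : i ≤ j) (hs : i + j ≤ ∑ a, s a) :
    (lev s i).card ≤ (lev s j).card := by
  sorry

theorem lev_half (s : ι → ℕ) (b : ι) {i j : ℕ} (hij : i ≤ j) (hj : 2 * j ≤ ∑ a, s a + s b) :
    (lev s i).card ≤ 2 * (lev s j).card := by
  sorry

/-! ## Row L2 (flows), uses L1 -/

theorem hasFlow (s : ι → ℕ) {j : ℕ} (hj : j + 1 ≤ ∑ a, s a) : HasFlow s j := by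
  sorry

/-! ## Row L3 (cells), uses L1 -/

theorem card_Kc (s : ι → ℕ) {ρ k : ℕ} (a : ι) (hk : k ≤ s a) (hρ : k ≤ ρ) :
    (Kc s ρ a k).card = (lev (Function.update s a 0) (ρ - k)).card := by
  sorry

theorem uni1 (s : ι → ℕ) {r : ℕ} (a : ι) (hr : 2 * r ≤ ∑ b, s b) :
    (s a + 1) * (Kc s r a (s a)).card ≤ (lev s r).card := by
  sorry

theorem uni2 (s : ι → ℕ) {r k : ℕ} (a : ι) (hr : 2 * r + 1 ≤ ∑ b, s b) (hk : 1 ≤ k)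
    (hks : k ≤ s a) : (Kc s (r + 1) a (s a)).card ≤ (Kc s (r + 1) a k).card := by
  sorry

theorem uni3 (s : ι → ℕ) {r i k : ℕ} {a b : ι} (hab : b ≠ a) (hs : s a ≤ s b)
    (hr : 2 * r + 1 ≤ ∑ b, s b) (hi : 1 ≤ i) (hik : i ≤ k) (hk : k ≤ s a) :
    (Kc s (r + 1) a k).card ≤ 2 * (Kc s (r + 1) a i).card := by
  sorry

/-! ## Row P1 (one step), uses T1 -/

theorem phi_pt (s : ι → ℕ) (r : ℕ) (u : (ι → ℕ) → ℝ) {a c : ι} (hac : c ≠ a) {A : ℝ} (hA : 0 ≤ A)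
    {x : ι → ℕ} (hx : x ∈ lev s (r + 1)) (hxc : x c < s c) (hxa : 1 ≤ x a)
    (h2 : 2 ≤ x a ∨ 0 < A) :
    Phi s r u a A x ≤ Phi s r u a A (up (dn x a) c) +
      2 * ((up x c a : ℝ) * (up x c c : ℝ) * gd r u (up x c) a c ^ 2 + Gam r u (up x c) a ^ 2) := by
  sorry

theorem phi_pt_one (s : ι → ℕ) (r : ℕ) (u : (ι → ℕ) → ℝ) {a c : ι} (hac : c ≠ a) {A : ℝ}
    (hA : 0 ≤ A) {x : ι → ℕ} (hx : x ∈ lev s (r + 1)) (hxc : x c < s c) (hxa : x a = 1) :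
    Phi s r u a A x ≤
      2 * ((up x c a : ℝ) * (up x c c : ℝ) * gd r u (up x c) a c ^ 2 + Gam r u (up x c) a ^ 2) := by
  sorry

theorem phi_step (s : ι → ℕ) (r : ℕ) (u : (ι → ℕ) → ℝ) (a : ι) {A : ℝ} (hA : 0 ≤ A) {i : ℕ}
    (hi : 2 ≤ i) (his : i ≤ s a) (hir : i ≤ r + 1)
    (hfl : HasFlow (Function.update s a 0) (r + 1 - i)) :
    ((Kc s (r + 1) a (i - 1)).card : ℝ) * ∑ x ∈ Kc s (r + 1) a i, Phi s r u a A x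
      ≤ ((Kc s (r + 1) a i).card : ℝ) * ∑ x ∈ Kc s (r + 1) a (i - 1), Phi s r u a A x
        + ((Kc s (r + 1) a (i - 1)).card : ℝ) * Ecell s r u a i := by
  sorry

/-! ## Row P2 (iteration and total), uses P1, L2, L3 -/

theorem phi_iter (s : ι → ℕ) (r : ℕ) (u : (ι → ℕ) → ℝ) (a : ι) {A : ℝ} (hA : 0 ≤ A) {j k : ℕ}
    (hj : 1 ≤ j) (hjk : j ≤ k) (hk : k ≤ s a) (hkr : k ≤ r + 1)
    (hroom : r + 1 - j ≤ ∑ b, s b - s a) {Λ : ℝ} (hΛ : 1 ≤ Λ)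
    (hcard : ∀ i, j ≤ i → i ≤ k →
      ((Kc s (r + 1) a k).card : ℝ) ≤ Λ * ((Kc s (r + 1) a i).card : ℝ)) :
    ∑ x ∈ Kc s (r + 1) a k, Phi s r u a A x
      ≤ Λ * (∑ x ∈ Kc s (r + 1) a j, Phi s r u a A x + ∑ i ∈ Ioc j k, Ecell s r u a i) := by
  sorry

theorem phi_one (s : ι → ℕ) (r : ℕ) (u : (ι → ℕ) → ℝ) (a : ι) {A : ℝ} (hA : 0 ≤ A)
    (hroom : r + s a < ∑ b, s b) :
    ∑ x ∈ Kc s (r + 1) a 1, Phi s r u a A x ≤ Ecell s r u a 1 := by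
  sorry

theorem sum_Ecell_le (s : ι → ℕ) (r : ℕ) (u : (ι → ℕ) → ℝ) (a : ι) :
    ∑ i ∈ Icc 1 (s a), Ecell s r u a i ≤ 2 * (Fintype.card ι : ℝ) * YY s r u := by
  sorry

/-! ## Row P3 (trace), uses P1, P2, L3 -/

theorem trace_bound (s : ι → ℕ) (r N : ℕ) (u : (ι → ℕ) → ℝ) (a : ι)
    (hr : 2 * r + 1 ≤ ∑ b, s b) (hN : ∀ b, s b ≤ N) :
    ∑ x ∈ Kc s (r + 1) a (s a), Jf (r + 1) u a x ^ 2
      ≤ 12 * (Fintype.card ι : ℝ) ^ 3 * (1 + (Fintype.card ι : ℝ) * (harmonic N : ℝ))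
        * (s a : ℝ) * YY s r u := by
  sorry

/-! ## Row P4 (two-row theorem), uses T1, T2, T3, P3 -/

theorem two_row (s : ι → ℕ) (r N : ℕ) (u : (ι → ℕ) → ℝ)
    (hr : 2 * r + 1 ≤ ∑ b, s b) (hN : ∀ b, s b ≤ N) :
    ∃ W B : (ι → ℕ) → ℝ,
      (∀ x ∈ lev s r, GG s u x = W x + B x) ∧
      (∑ x ∈ lev s r, B x ^ 2 ≤ 2 * (Fintype.card ι : ℝ) ^ 2 *
        ∑ x ∈ lev s r, (GG s u x ^ 2
          - ∑ a ∈ univ.filter (fun a => x a + 1 = s a), hst u a x ^ 2)) ∧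
      (∀ x ∈ lev s r, full s x = 0 → W x = 0) ∧
      (∑ x ∈ lev s r, W x ^ 2 / (full s x : ℝ) ≤
        12 * (Fintype.card ι : ℝ) ^ 5 * (1 + (Fintype.card ι : ℝ) * (harmonic N : ℝ)) *
        ∑ x ∈ lev s r, (GG s u x ^ 2
          - ∑ a ∈ univ.filter (fun a => x a + 1 = s a), hst u a x ^ 2)) := by
  sorry

end TwoRow

section Multi
variable {κ ι : Type*} [Fintype κ] [DecidableEq κ] [Fintype ι] [DecidableEq ι]

/-! ## Row M1 (sections) -/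

theorem upd_mem {c : ι → ℕ} {rr : κ → ℕ} {T : κ → ι → ℕ} (hT : T ∈ Om c rr) (l : κ)
    (x : ι → ℕ) : Function.update T l x ∈ Om c rr ↔ x ∈ lev (sec c T l) (rr l) := by
  sorry

theorem self_mem {c : ι → ℕ} {rr : κ → ℕ} {T : κ → ι → ℕ} (hT : T ∈ Om c rr) (l : κ) :
    T l ∈ lev (sec c T l) (rr l) := by
  sorry

theorem sec_upd (c : ι → ℕ) (T : κ → ι → ℕ) (l : κ) (x : ι → ℕ) :
    sec c (Function.update T l x) l = sec c T l := by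
  sorry

theorem res_upd (u : (κ → ι → ℕ) → ℝ) (T : κ → ι → ℕ) (l : κ) (x : ι → ℕ) :
    res u (Function.update T l x) l = res u T l := by
  sorry

theorem sec_eq_hub_add {c : ι → ℕ} {rr : κ → ℕ} {T : κ → ι → ℕ} (hT : T ∈ Om c rr) (l : κ)
    (a : ι) : sec c T l a = hub c T a + T l a := by
  sorry

theorem sum_sec {c : ι → ℕ} {rr : κ → ℕ} {T : κ → ι → ℕ} (hT : T ∈ Om c rr) (l : κ) :
    ∑ a, sec c T l a + ∑ k, rr k = ∑ a, c a + rr l := by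
  sorry

theorem sum_le_sum_of_sec {c : ι → ℕ} {rr : κ → ℕ} (l : κ) {F G : (κ → ι → ℕ) → ℝ}
    (hFG : ∀ T ∈ Om c rr, ∑ x ∈ lev (sec c T l) (rr l), F (Function.update T l x)
      ≤ ∑ x ∈ lev (sec c T l) (rr l), G (Function.update T l x)) :
    ∑ T ∈ Om c rr, F T ≤ ∑ T ∈ Om c rr, G T := by
  sorry

theorem sum_inv_mul_Gl {c : ι → ℕ} {rr : κ → ℕ} (l : κ) (u θ : (κ → ι → ℕ) → ℝ)
    (hθ : ∀ T ∈ Om c rr, ∀ x ∈ lev (sec c T l) (rr l), θ (Function.update T l x) = θ T) :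
    ∑ T ∈ Om c rr, θ T * Gl c l u T = 0 := by
  sorry

/-- uses L3 (`uni1`) -/
theorem wall_inv {c : ι → ℕ} {rr : κ → ℕ} (l : κ) (θ : (κ → ι → ℕ) → ℝ)
    (hR : ∑ k, rr k + rr l ≤ ∑ a, c a)
    (hθ : ∀ T ∈ Om c rr, ∀ x ∈ lev (sec c T l) (rr l), θ (Function.update T l x) = θ T) :
    ∑ T ∈ Om c rr, (full (sec c T l) (T l) : ℝ) * θ T ^ 2
      ≤ (Fintype.card ι : ℝ) * ∑ T ∈ Om c rr, θ T ^ 2 := by
  sorry

/-! ## Row M2 (Bochner) -/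

theorem bochner (c : ι → ℕ) (rr : κ → ℕ) (u : (κ → ι → ℕ) → ℝ) :
    ∑ l, ∑ T ∈ Om c rr, (Gl c l u T ^ 2
        - ∑ a ∈ univ.filter (fun a => hub c T a = 1), hl l u a T ^ 2)
      ≤ ∑ T ∈ Om c rr, (∑ l, Gl c l u T) ^ 2 := by
  sorry

/-! ## Row M3 (solvability) -/

theorem solve (c : ι → ℕ) (rr : κ → ℕ) (hR : ∑ k, rr k < ∑ a, c a) (F : (κ → ι → ℕ) → ℝ)
    (hF : ∑ T ∈ Om c rr, F T = 0) : ∃ u : (κ → ι → ℕ) → ℝ, ∀ T ∈ Om c rr, ∑ l, Gl c l u T = F T := by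
  sorry

end Multi

/-! ## Row C1 (abstract combination) -/

section Comb
open Vale.Agent.KTV

theorem comb {Ω κ : Type*} [Fintype Ω] [Fintype κ] [DecidableEq κ]
    (hκ : 2 ≤ Fintype.card κ)
    (r1 : κ → Ω → Ω → Prop) (r2 : κ → κ → Ω → Ω → Prop)
    (h1 : ∀ l, Equivalence (r1 l)) (h2 : ∀ l k, Equivalence (r2 l k))
    (hsymm : ∀ l k x y, r2 l k x y → r2 k l x y) (h12 : ∀ l k x y, r1 l x y → r2 l k x y)
    (X : κ → Ω → ℝ) (hX : ∀ l x, 0 ≤ X l x) (n C1 C2 : ℝ) (hn : 0 ≤ n) (hC1 : 0 ≤ C1)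
    (hC2 : 0 ≤ C2)
    (hwall : ∀ l (θ : Ω → ℝ), (∀ x y, r1 l x y → θ x = θ y) →
      ∑ x, X l x * θ x ^ 2 ≤ n * ∑ x, θ x ^ 2)
    (F : Ω → ℝ) (W B : κ → Ω → ℝ) (hF : ∀ x, ∑ l, (W l x + B l x) = F x)
    (horth : ∀ l (θ : Ω → ℝ), (∀ x y, r1 l x y → θ x = θ y) → ∑ x, θ x * (W l x + B l x) = 0)
    (hB : ∑ l, ∑ x, B l x ^ 2 ≤ C1 * ∑ x, F x ^ 2)
    (hW0 : ∀ l x, X l x = 0 → W l x = 0)
    (hW : ∑ l, ∑ x, W l x ^ 2 / X l x ≤ C2 * ∑ x, F x ^ 2) :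
    ∑ x, F x ^ 2 ≤ (6 * (1 + (Fintype.card κ + 1) * C1) + 8 * n * C2) *
      ∑ l, ∑ k ∈ univ.erase l, ∑ x, (F x - avg (r2 l k) F x) ^ 2 := by
  sorry

/-! ## Row C2 (mixing of an average of projections) -/

theorem mix_proj {Ω I : Type*} [Fintype Ω] [Nonempty Ω] [DecidableEq Ω] [Fintype I] [Nonempty I]
    (R : I → Ω → Ω → Prop) (hR : ∀ i, Equivalence (R i)) (P : Matrix Ω Ω ℝ)
    (hP : ∀ x y, P x y = (1 / (Fintype.card I : ℝ)) *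
      ∑ i, (open scoped Classical in if R i x y then 1 / ((cls (R i) x).card : ℝ) else 0))
    {γ : ℝ} (hγ : 0 ≤ γ) (hγ1 : γ ≤ 1)
    (hgap : ∀ f : Ω → ℝ, ∑ x, f x = 0 → (Fintype.card I : ℝ) * γ * ∑ x, f x ^ 2
      ≤ ∑ i, ∑ x, (f x - avg (R i) f x) ^ 2)
    (x : Ω) (t : ℕ) :
    (∑ y, |(P ^ t) x y - 1 / (Fintype.card Ω : ℝ)|) ^ 2
      ≤ (Fintype.card Ω : ℝ) * (1 - γ) ^ t := by
  sorry

end Comb

/-! ## Row G1 (gap on `Om`): assembly of everything above -/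

section GapOm
open Vale.Agent.KTV
variable {κ ι : Type*} [Fintype κ] [DecidableEq κ] [Fintype ι] [DecidableEq ι]

theorem gap_Om (c : ι → ℕ) (rr : κ → ℕ) (hκ : 2 ≤ Fintype.card κ)
    (hR : ∀ l, ∑ k, rr k + rr l + 1 ≤ ∑ a, c a) (N : ℕ) (hN : ∀ a, c a ≤ N)
    (F : {T // T ∈ Om c rr} → ℝ) (hF : ∑ T, F T = 0) :
    ∑ T, F T ^ 2 ≤ (6 * (1 + (Fintype.card κ + 1) * (2 * (Fintype.card ι : ℝ) ^ 2))
        + 8 * (Fintype.card ι : ℝ) * (12 * (Fintype.card ι : ℝ) ^ 5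
          * (1 + (Fintype.card ι : ℝ) * (harmonic N : ℝ)))) *
      ∑ l, ∑ k ∈ univ.erase l, ∑ T,
        (F T - avg (fun T T' : {T // T ∈ Om c rr} =>
          ∀ j, j ≠ l → j ≠ k → T.1 j = T'.1 j) F T) ^ 2 := by
  sorry

end GapOm

end Vale.Agent.H27.CT.Skel
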