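import Vale.Agent.H27.CT.Defs2
import Vale.Agent.H27.CT.FinDefs2

/-!
# Skeleton of rows E1 .. E9 (with `sorry`)
Work in `Vale/Agent/H27/CT/<Row>.lean`, import `Defs2` (not this file, except temporarily),
namespace `Vale.Agent.H27.CT`, same names and forms.
-/

open Finset

namespace Vale.Agent.H27.CT.Skel2

open Vale.Agent.KTV

section TwoRow
variable {ι : Type*} [Fintype ι] [DecidableEq ι]

/-! ## Row E1 : one unit of capacity -/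

theorem cap_diff (t : ι → ℕ) (r : ℕ) (b : ι) (hb : 1 ≤ t b) (hr : 2 * r ≤ ∑ a, t a)
    (f : (ι → ℕ) → ℝ) (hf : LipOn (lev t r) 1 f) :
    |av (lev t r) f - av (lev (dn t b) r) f| ≤ Dq t r b := by
  sorry

theorem Dq_le_half (t : ι → ℕ) (r : ℕ) (b : ι) (hr : 2 * r ≤ ∑ a, t a) : Dq t r b ≤ 1 / 2 := by
  sorry

/-! ## Row E2 : pair decomposition -/

theorem card_Lk (s : ι → ℕ) (r : ℕ) {a b : ι} (hab : a ≠ b) (k : ℕ) :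
    (Lk s r a b k).card = tz (s a) (s b) k * wk s r a b k := by
  sorry

theorem sum_Lk (s : ι → ℕ) (r : ℕ) (a b : ι) (f : (ι → ℕ) → ℝ) :
    ∑ x ∈ lev s r, f x = ∑ k ∈ range (s a + s b + 1), ∑ x ∈ Lk s r a b k, f x := by
  sorry

theorem internal_lt (s : ι → ℕ) (r : ℕ) {a b : ι} (hab : a ≠ b) (ha : 1 ≤ s a)
    (hs : s a ≤ s b + 1) (f : (ι → ℕ) → ℝ) {k : ℕ} (hk : k < s a) :
    av (Lk s r a b k) f = av (Lk (up (dn s a) b) r a b k) f := by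
  sorry

theorem internal_mid (s : ι → ℕ) (r : ℕ) {a b : ι} (hab : a ≠ b) (ha : 1 ≤ s a)
    (f : (ι → ℕ) → ℝ) (hf : LipOn (lev (up s b) r) 1 f) {k : ℕ} (hk : s a ≤ k) (hk' : k ≤ s b) :
    |av (Lk s r a b k) f - av (Lk (up (dn s a) b) r a b k) f| ≤ 1 / 2 := by
  sorry

theorem internal_top (s : ι → ℕ) (r : ℕ) {a b : ι} (hab : a ≠ b) (ha : 1 ≤ s a)
    (hs : s a ≤ s b + 1) (f : (ι → ℕ) → ℝ) (hf : LipOn (lev (up s b) r) 1 f) {k : ℕ}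
    (hk : s b + 1 ≤ k) :
    |av (Lk s r a b k) f - av (Lk (up (dn s a) b) r a b k) f| ≤ 1 := by
  sorry

/-! ## Row E3 : the conditional averages are Lipschitz in `k` -/

theorem Lk_lip (t : ι → ℕ) (r : ℕ) {a b : ι} (hab : a ≠ b) (f : (ι → ℕ) → ℝ)
    (hf : LipOn (lev t r) 1 f) :
    ∃ hh : ℕ → ℝ, (∀ k, |hh (k + 1) - hh k| ≤ 1) ∧
      ∀ k, (Lk t r a b k).Nonempty → hh k = av (Lk t r a b k) f := by
  sorry

/-! ## Row E4 : one-dimensional inequalities -/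

end TwoRow

/-- (CR) -/
theorem crude_le (α β : ℕ) (hα : 1 ≤ α) (hβ : α ≤ β + 1) (w : ℕ → ℝ) (hw : ∀ k, 0 ≤ w k)
    (hslc : ∀ i j, i ≤ j → w i * w (j + 1) ≤ w (i + 1) * w j) :
    2 * (∑ l ∈ range α, ∑ k ∈ Icc α β, ((l : ℝ) + 1) * ((k : ℝ) - l) * (w l * w k)
        + ∑ l ∈ Icc (β + 1) (α + β), ∑ k ∈ Icc α β,
            ((α : ℝ) + β + 1 - l) * ((l : ℝ) - k) * (w l * w k))
      ≤ (∑ k ∈ range (α + β + 1), (tz α β k : ℝ) * w k)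
        * ∑ k ∈ range (α + β + 1), (tz (α - 1) (β + 1) k : ℝ) * w k := by
  sorry

theorem one_dim (α β : ℕ) (hα : 1 ≤ α) (hβ : α ≤ β + 1) (w : ℕ → ℝ) (hw : ∀ k, 0 ≤ w k)
    (hslc : ∀ i j, i ≤ j → w i * w (j + 1) ≤ w (i + 1) * w j)
    (hdom : ∀ k k', k ≤ k' → α + β ≤ k + k' + 1 → w k' ≤ w k)
    (hh : ℕ → ℝ) (hlip : ∀ k, |hh (k + 1) - hh k| ≤ 1)
    (hbig : ∑ k ∈ range (α + β + 1), (tz (α - 1) (β + 1) k : ℝ) * w k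
      ≤ 4 * ((β : ℝ) + 1) * ∑ i ∈ range α, w (β + 1 + i)) :
    (∑ k ∈ range (α + β + 1), (tz α β k : ℝ) * w k * hh k)
        * (∑ k ∈ range (α + β + 1), (tz (α - 1) (β + 1) k : ℝ) * w k)
      - (∑ k ∈ range (α + β + 1), (tz (α - 1) (β + 1) k : ℝ) * w k * hh k)
        * (∑ k ∈ range (α + β + 1), (tz α β k : ℝ) * w k)
      ≤ (1 / 2 - 1 / 2000) * ((∑ k ∈ range (α + β + 1), (tz α β k : ℝ) * w k)
        * ∑ k ∈ range (α + β + 1), (tz (α - 1) (β + 1) k : ℝ) * w k) := by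
  sorry

/-- internal cost -/
theorem internal_half (α β : ℕ) (hβ : α ≤ β + 1) (w : ℕ → ℝ)
    (hdom : ∀ k k', k ≤ k' → α + β ≤ k + k' + 1 → w k' ≤ w k) :
    ∑ k ∈ Icc α β, (1 / 2 : ℝ) * ((tz α β k : ℝ) * w k)
        + ∑ k ∈ Icc (β + 1) (α + β), (tz α β k : ℝ) * w k
      ≤ 1 / 2 * ∑ k ∈ range (α + β + 1), (tz α β k : ℝ) * w k := by
  sorry

section TwoRow
variable {ι : Type*} [Fintype ι] [DecidableEq ι]

/-! ## Row E5 : the contraction (uses E1-E4) -/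

theorem w1_contract (s : ι → ℕ) (r : ℕ) {a b : ι} (hab : a ≠ b) (ha : 1 ≤ s a)
    (hr : 2 * r + 1 ≤ ∑ q, s q) (f : (ι → ℕ) → ℝ) (hf : LipOn (lev (up s b) r) 1 f) :
    |av (lev s r) f - av (lev (up (dn s a) b) r) f| ≤ 1999 / 2000 := by
  sorry

end TwoRow

/-! ## Row E6b : abstract two projections -/

theorem two_proj {Ω : Type*} [Fintype Ω] {r1 r2 r12 : Ω → Ω → Prop} (h1 : Equivalence r1)
    (h2 : Equivalence r2) (h12 : Equivalence r12) (hr1 : ∀ x y, r1 x y → r12 x y)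
    (hr2 : ∀ x y, r2 x y → r12 x y) {θ : ℝ} (hθ0 : 0 ≤ θ) (hθ : θ < 1)
    (heig : ∀ (f : Ω → ℝ) (μ : ℝ), f ≠ 0 → (∀ x y, r1 x y → f x = f y) → avg r12 f = 0 →
      avg r1 (avg r2 f) = μ • f → μ ≤ θ) (F : Ω → ℝ) :
    ∑ x, (F x - avg r12 F x) ^ 2 ≤
      (3 / (1 - θ)) * (∑ x, (F x - avg r1 F x) ^ 2 + ∑ x, (F x - avg r2 F x) ^ 2) := by
  sorry

theorem avg_gap {Ω I : Type*} [Fintype Ω] [Fintype I] [Nonempty I] {R : I → Ω → Ω → Prop}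
    {R0 : Ω → Ω → Prop} (hR : ∀ i, Equivalence (R i)) (h0 : Equivalence R0)
    (hle : ∀ i x y, R i x y → R0 x y) {δ : ℝ} (hδ : δ ≤ 1)
    (heig : ∀ (f : Ω → ℝ) (μ : ℝ), f ≠ 0 → avg R0 f = 0 →
      (fun x => (1 / (Fintype.card I : ℝ)) * ∑ i, avg (R i) f x) = μ • f → μ ≤ 1 - δ)
    (F : Ω → ℝ) :
    (Fintype.card I : ℝ) * δ * ∑ x, (F x - avg R0 F x) ^ 2 ≤
      ∑ i, ∑ x, (F x - avg (R i) F x) ^ 2 := by
  sorry

section Multi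
variable {κ ι : Type*} [Fintype κ] [DecidableEq κ] [Fintype ι] [DecidableEq ι]

/-! ## Row E6a : Lipschitz contraction on tables (uses E5) -/

theorem lip_step (c : ι → ℕ) (rr : κ → ℕ) {l k : κ} (hlk : l ≠ k)
    (hR : ∀ l, ∑ k, rr k + rr l + 1 ≤ ∑ a, c a) (f : {T // T ∈ Om c rr} → ℝ)
    (hinv : ∀ x y, Ag c rr l l x y → f x = f y) {L : ℝ} (hL0 : 0 ≤ L) (hL : LipR c rr l k L f) :
    LipR c rr k l (1999 / 2000 * L) (avg (Ag c rr k k) f) := by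
  sorry

/-! ## Row E6c : three rows (uses E6a, E6b) -/

theorem three_row_gap (c : ι → ℕ) (rr : κ → ℕ) {l k : κ} (hlk : l ≠ k)
    (hR : ∀ l, ∑ k, rr k + rr l + 1 ≤ ∑ a, c a) (F : {T // T ∈ Om c rr} → ℝ) :
    ∑ T, (F T - avg (Ag c rr l k) F T) ^ 2 ≤
      6000 * (∑ T, (F T - avg (Ag c rr l l) F T) ^ 2 + ∑ T, (F T - avg (Ag c rr k k) F T) ^ 2) := by
  sorry

/-! ## Row E7 : two rows (uses avg_gap of E6b) -/

theorem two_row_gap (c : ι → ℕ) (rr : κ → ℕ) (l : κ) (F : {T // T ∈ Om c rr} → ℝ) :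
    ∑ T, (F T - avg (Ag c rr l l) F T) ^ 2 ≤
      1 / 2 * ∑ a, ∑ b, ∑ T, (F T - avg (Ag22 c rr l a b) F T) ^ 2 := by
  sorry

end Multi

/-! ## Row E8 : gap for full tables (uses G1 gap_Om, F3 omEquiv, E6c, E7) -/

theorem gap22_tab {m n : ℕ} (hm : 2 ≤ m) (r : Fin m → ℕ) (c : Fin n → ℕ) (N : ℕ)
    (hr : ∑ i, r i = N) (hc : ∑ j, c j = N) (i₀ : Fin m) (hi : ∀ l, l ≠ i₀ → r l + 1 ≤ r i₀)
    (F : Tab r c → ℝ) (hF : ∑ X, F X = 0) :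
    ∑ X, F X ^ 2 ≤ (6 * (1 + (m : ℝ) * (2 * (n : ℝ) ^ 2))
        + 8 * (n : ℝ) * (12 * (n : ℝ) ^ 5 * (1 + (n : ℝ) * (harmonic N : ℝ)))) * (6000 * m) *
      ∑ i, ∑ j, ∑ a, ∑ b, ∑ X, (F X - avg (Agree22 i j a b) F X) ^ 2 := by
  sorry

/-! ## Row E9 : the sampler (uses E8, C2, F1, F2; same proof as F4) -/

theorem sampler22 {m n : ℕ} (hm : 1 ≤ m) (r : Fin m → ℕ) (c : Fin n → ℕ) (N : ℕ)
    (hr : ∑ i, r i = N) (hc : ∑ j, c j = N) (i₀ : Fin m) (hi₀ : ∀ i, r i ≤ r i₀)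
    (x₀ : Tab (rowPlus r i₀) (colPlus c)) (ε : ℝ) (hε : 0 < ε) (hε1 : ε < 1) (t : ℕ)
    (ht : 1260000 * (m : ℝ) ^ 4 * ((n : ℝ) + 1) ^ 9 * (1 + Real.log (N + 1)) *
      (m * (n + 1) * Real.log (N + 2) + 2 * Real.log (2 * (m * n + 1) / ε)) ≤ t) :
    1 / (2 * ((m : ℝ) * n + 1))
        ≤ ∑ Z : Tab r c, (heatBath22 (rowPlus r i₀) (colPlus c) ^ t) x₀ (extend i₀ Z) ∧
      1 / 2 * ∑ X : Tab r c, |outLaw22 i₀ x₀ t X - 1 / (Fintype.card (Tab r c) : ℝ)| ≤ ε := by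
  sorry

end Vale.Agent.H27.CT.Skel2
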