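import Vale.Agent.H27.CT.Defs
import Vale.Agent.H27.CT.FinDefs
import Vale.Agent.KTV.Avg

/-!
# Skeleton of the final rows (with `sorry`).
Work in a file `Vale/Agent/H27/CT/<Row>.lean`, same names, namespace `Vale.Agent.H27.CT`.
-/

open Finset

namespace Vale.Agent.H27.CT.Skel

open Vale.Agent.KTV

variable {m n : ℕ}

/-! ## Row F1 -/

theorem card_Tab_le (r : Fin m → ℕ) (c : Fin n → ℕ) (N : ℕ) (hN : ∑ i, r i = N) :
    Fintype.card (Tab r c) ≤ (N + 1) ^ (m * n) := by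
  sorry

/-! ## Row F2 -/

theorem card_ext_le (r : Fin m → ℕ) (c : Fin n → ℕ) (i₀ : Fin m) (hN : ∑ i, r i = ∑ j, c j) :
    Fintype.card (Tab (rowPlus r i₀) (colPlus c)) ≤ (m * n + 1) * Fintype.card (Tab r c) := by
  sorry

theorem extend_injective (r : Fin m → ℕ) (c : Fin n → ℕ) (i₀ : Fin m) :
    Function.Injective (extend (r := r) (c := c) i₀) := by
  sorry

/-! ## Row F3 (uses G1) -/

theorem gap_tab (hm : 3 ≤ m) (r : Fin m → ℕ) (c : Fin n → ℕ) (N : ℕ) (hr : ∑ i, r i = N)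
    (hc : ∑ j, c j = N) (i₀ : Fin m) (hi : ∀ l, l ≠ i₀ → r l + 1 ≤ r i₀)
    (F : Tab r c → ℝ) (hF : ∑ X, F X = 0) :
    ∑ X, F X ^ 2 ≤ (6 * (1 + (m : ℝ) * (2 * (n : ℝ) ^ 2))
        + 8 * (n : ℝ) * (12 * (n : ℝ) ^ 5 * (1 + (n : ℝ) * (harmonic N : ℝ)))) *
      ∑ i, ∑ j, ∑ k, ∑ X, (F X - avg (Agree i j k) F X) ^ 2 := by
  sorry

/-! ## Row F4 (uses F1, F2, F3, C2) -/

theorem sampler (hm : 1 ≤ m) (r : Fin m → ℕ) (c : Fin n → ℕ) (N : ℕ) (hr : ∑ i, r i = N)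
    (hc : ∑ j, c j = N) (i₀ : Fin m) (hi₀ : ∀ i, r i ≤ r i₀)
    (x₀ : Tab (rowPlus r i₀) (colPlus c)) (ε : ℝ) (hε : 0 < ε) (hε1 : ε < 1) (t : ℕ)
    (ht : 210 * (m : ℝ) ^ 4 * ((n : ℝ) + 1) ^ 7 * (1 + Real.log (N + 1)) *
      (m * (n + 1) * Real.log (N + 2) + 2 * Real.log (2 * (m * n + 1) / ε)) ≤ t) :
    1 / (2 * ((m : ℝ) * n + 1))
        ≤ ∑ Z : Tab r c, (heatBath (rowPlus r i₀) (colPlus c) ^ t) x₀ (extend i₀ Z) ∧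
      1 / 2 * ∑ X : Tab r c, |outLaw i₀ x₀ t X - 1 / (Fintype.card (Tab r c) : ℝ)| ≤ ε := by
  sorry

end Vale.Agent.H27.CT.Skel
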